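import Vale.Agent.P141.H618.CapV
import Vale.Agent.P141.H677.Glue
import Vale.Agent.P141.H305.TopDefs

/-!
# P141, line (A): the cap of the slot `F2 v` on the alive nodes

On a node which is not stopped the mass of `v` is at most `Λ s`; so the slot `F2 v` at one `x0`
has the cap `2 √(√(Λ s) ez)` there: hypothesis `capC` of the region files.
-/

namespace Vale.Agent.P141.H618

open Finset Matrix
open Vale.Agent.P141.PL (Pt iv ix mem_iv ix_ix)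
open Vale.Agent.P141.PL.H317 (crn)
open Vale.Agent.P141.PL.H315 (A2 Tri)
open Vale.Agent.P141.H48 (BSl ES cst sst bg)
open Vale.Agent.P141.H958 (CapR lbs)
open Vale.Agent.P141.H677 (sN mem_sN fC rv)

noncomputable section

open scoped Classical

/-- lines of the function of time `k` on the cells of scale `k`, second variable -/
theorem line1 {n k : ℕ} {e cP : ℝ} {F : ℕ → Pt → ℝ} {Q : ℕ → Pt → Prop} (h : BSl n e cP F Q)
    (hk : 1 ≤ k) (hkn : k ≤ n) (m z y : ℤ) : ∑ x ∈ iv k m, F k (z, x, y) ^ 2 ≤ e * 2 ^ k := by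
  obtain ⟨j, rfl⟩ : ∃ j, k = j + 1 := ⟨k - 1, by omega⟩
  rw [H103.sum_iv_two]
  have h1 := h.l1 j (by omega) (2 * m) z y
  have h2 := h.l1 j (by omega) (2 * m + 1) z y
  calc _ ≤ e * 2 ^ j + e * 2 ^ j := add_le_add h1 h2
    _ = _ := by rw [pow_succ]; ring

/-- lines of the function of time `k` on the cells of scale `k`, third variable -/
theorem line2 {n k : ℕ} {e cP : ℝ} {F : ℕ → Pt → ℝ} {Q : ℕ → Pt → Prop} (h : BSl n e cP F Q)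
    (hk : 1 ≤ k) (hkn : k ≤ n) (m z x : ℤ) : ∑ y ∈ iv k m, F k (z, x, y) ^ 2 ≤ e * 2 ^ k := by
  obtain ⟨j, rfl⟩ : ∃ j, k = j + 1 := ⟨k - 1, by omega⟩
  rw [H103.sum_iv_two]
  have h1 := h.l2 j (by omega) (2 * m) z x
  have h2 := h.l2 j (by omega) (2 * m + 1) z x
  calc _ ≤ e * 2 ^ j + e * 2 ^ j := add_le_add h1 h2
    _ = _ := by rw [pow_succ]; ring

/-- the mass of an edge on a square which is not stopped -/
theorem mass_alive {Λ s : ℝ} {a : ℤ × ℤ → ℝ} {K k : ℕ} (hk : k ≤ K) (hΛ : 0 ≤ Λ) {m1 m2 : ℤ}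
    (h : ¬ sst Λ a K k (2 ^ k * m1) (2 ^ k * m2))
    (hs : A2 K a (2 ^ k * m1) (2 ^ k * m2) ≤ s) :
    ∑ x ∈ iv k m1, ∑ y ∈ iv k m2, a (x, y) ^ 2 ≤ Λ * s * 4 ^ k := by
  have h1 : ¬ bg Λ a K k (2 ^ k * m1) (2 ^ k * m2) := fun hb => h ⟨k, le_rfl, hk, hb⟩
  unfold H48.bg at h1
  push Not at h1
  have h2 := h1.1.trans (mul_le_mul_of_nonneg_left hs hΛ)
  unfold PL.H315.A2 PL.H315.avg at h2
  rw [PL.H317.iv_eq_iv, PL.H317.iv_eq_iv, ← PL.H317.iv_eq_iv, ← PL.H317.iv_eq_iv,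
    H206.iv_eq, H206.iv_eq, card_product, PL.card_iv, PL.card_iv, sum_product] at h2
  push_cast at h2
  have h4 : (4 : ℝ) ^ k = 2 ^ k * 2 ^ k := by rw [← mul_pow]; norm_num
  have h5 : (0 : ℝ) < 2 ^ k * 2 ^ k := by positivity
  rw [inv_mul_le_iff₀ h5] at h2
  rw [h4]
  linarith

variable {ι : Type*} [Fintype ι]

/-- **The cap of the slot `F2 v` on an alive square.** -/
theorem capR_fC0 {L : ℕ} {e : ι → ℤ} (he : Function.Injective e) (hm : ∀ i, e i ∈ lbs L)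
    {Λ s ez cP : ℝ} {n K k : ℕ} (hk : 1 ≤ k) (hkK : k ≤ K) (hKn : K ≤ n) (hΛ : 0 ≤ Λ)
    (hez : 0 ≤ ez) {F2 : ℕ → Pt → ℝ} {Q : ℕ → Pt → Prop} (hF : BSl n ez cP F2 Q)
    {a : ℤ × ℤ → ℝ} {v : ℤ → ℤ → ι → ℝ} {m1 m3 : ℤ}
    (ha : ∀ x ∈ iv k m1, ∀ z ∈ iv k m3, 0 ≤ a (x, z) ∧ a (x, z) ≤ 1)
    (hv : ∀ x ∈ iv k m1, ∀ z ∈ iv k m3, v x z ⬝ᵥ v x z ≤ a (x, z) ^ 2)
    (hal : ¬ sst Λ a K k (2 ^ k * m1) (2 ^ k * m3))
    (hs : A2 K a (2 ^ k * m1) (2 ^ k * m3) ≤ s) (x0 : ℤ) :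
    CapR L k m3 m1 (2 * √(√(Λ * s) * ez)) fun lab z x => H338.cu e (fC v F2 x0 k z x) lab := by
  have hs0 : 0 ≤ s := (PL.H315.A2_nonneg _ _ _ _).trans hs
  refine capR_alive (w := fun z x => a (x, z)) (Z := fun z x => F2 k (x0, x, z))
    (Real.sqrt_nonneg _) hez (fun z hz x hx => (ha x hx z hz).1)
    (fun z hz x hx => (ha x hx z hz).2) (fun z hz x hx => ?_) ?_
    (fun z _ => line1 hF hk (hkK.trans hKn) m1 x0 z)
    fun x _ => line2 hF hk (hkK.trans hKn) m3 x0 x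
  · have e1 : ∑ l ∈ lbs L, H338.cu e (fC v F2 x0 k z x) l ^ 2 =
        F2 k (x0, x, z) ^ 2 * (v x z ⬝ᵥ v x z) := by
      have h := H338.sum_cu_cu he hm (fC v F2 x0 k z x) (fC v F2 x0 k z x)
      simp only [sq]
      rw [h]
      unfold H677.fC dotProduct
      rw [mul_sum]
      refine sum_congr rfl fun i _ => ?_
      simp only [Pi.smul_apply, smul_eq_mul]
      ring
    rw [e1, mul_pow, mul_comm]
    exact mul_le_mul_of_nonneg_right (hv x hx z hz) (sq_nonneg _)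
  · rw [Real.sq_sqrt (mul_nonneg hΛ hs0), sum_comm]
    exact mass_alive hkK hΛ hal hs

/-- **`capC` on the alive nodes** in the letters of `H305.Cls` and `H677.sN`. -/
theorem capC_alive {L : ℕ} {e : ι → ℤ} (he : Function.Injective e) (hm : ∀ i, e i ∈ lbs L)
    {Λ s r P ez cP : ℝ} {n K : ℕ} (hKn : K ≤ n) (hΛ : 0 ≤ Λ) {F2 : ℕ → Pt → ℝ}
    (hF : ES n ez cP F2) {x : Pt} {U : Tri} {g : ℤ → ℤ → ℝ} {u v : ℤ → ℤ → ι → ℝ}
    (hC : H305.Cls K x s r P U g u v) {o x0 : ℤ} {k : ℕ} (hk : k ∈ Icc 1 K) {m : Pt}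
    (hmN : m ∈ sN (fun k z => ¬ cst Λ U K k z) o K (PL.cx K x) x0 k) :
    CapR L k m.1 m.2.2 (2 * √(√(Λ * s) * ez))
      fun lab z y => H338.cu e (fC v F2 x0 k z y) lab := by
  obtain ⟨hk1, hkK⟩ := mem_Icc.1 hk
  obtain ⟨hez, Q, hQ⟩ := hF
  obtain ⟨h1, _, h3⟩ := mem_sN.1 hmN
  unfold PL.H560.cbs H677.rv PL.cx at h1
  simp only [mem_product, mem_iv] at h1
  obtain ⟨i1, _, i3⟩ := h1
  have c1 : ∀ y ∈ iv k m.2.2, y ∈ PL.H315.iv K x.1 := by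
    intro y hy
    rw [PL.H317.iv_eq_iv, mem_iv]
    rw [mem_iv] at hy
    rw [← i1, ← hy, ix_ix, Nat.add_sub_cancel' hkK]
  have c3 : ∀ z ∈ iv k m.1, z ∈ PL.H315.iv K x.2.2 := by
    intro z hz
    rw [PL.H317.iv_eq_iv, mem_iv]
    rw [mem_iv] at hz
    rw [← i3, ← hz, ix_ix, Nat.add_sub_cancel' hkK]
  refine capR_fC0 he hm hk1 hkK hKn hΛ hez hQ (a := U.2.1)
    (fun y hy z hz => hC.U_v y (c1 y hy) z (c3 z hz))
    (fun y hy z hz => hC.v_le y (c1 y hy) z (c3 z hz)) ?_ ?_ x0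
  · intro h
    exact h3 (Or.inr (Or.inl h))
  · have e1 : A2 K U.2.1 (2 ^ k * m.2.2) (2 ^ k * m.1) = A2 K U.2.1 x.1 x.2.2 := by
      have j1 : (2 : ℤ) ^ k * m.2.2 ∈ iv k m.2.2 := by
        rw [PL.iv, mem_Ico]
        exact ⟨le_rfl, by nlinarith [pow_pos (by norm_num : (0 : ℤ) < 2) k]⟩
      have j3 : (2 : ℤ) ^ k * m.1 ∈ iv k m.1 := by
        rw [PL.iv, mem_Ico]
        exact ⟨le_rfl, by nlinarith [pow_pos (by norm_num : (0 : ℤ) < 2) k]⟩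
      unfold PL.H315.A2
      rw [PL.H315.iv_eq (c1 _ j1), PL.H315.iv_eq (c3 _ j3)]
    rw [e1]
    exact hC.U_v2

end

end Vale.Agent.P141.H618
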