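import Vale.Agent.P141.H958.Enc2

/-!
# P141, CE: the cap of a product slot on a square where the bounded factor has small mass

`capR_alive`: labels on the second variable, the label norm is at most `w * Z` with `0 ≤ w ≤ 1`,
mass of `w` on the square at most `q ^ 2`, all lines of `Z` in the square at most `e`. Then the
slot has the cap `2 √(q e)` on the square.
-/

namespace Vale.Agent.P141.H618

open Finset
open Vale.Agent.P141.PL Vale.Agent.P141.PL.H588 Vale.Agent.P141.H958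
open Vale.Agent.P141.PL.H804 (Cap)

noncomputable section

/-- Cauchy-Schwarz with two splittings of the weight. -/
theorem cs_rows {X Y : Finset ℤ} {a b : ℤ → ℝ} {w Z : ℤ → ℤ → ℝ} {r c : ℝ}
    (hr : ∀ x ∈ X, ∑ y ∈ Y, w x y ^ 2 ≤ r) (hc : ∀ y ∈ Y, ∑ x ∈ X, Z x y ^ 2 ≤ c) :
    (∑ x ∈ X, ∑ y ∈ Y, a x * b y * (w x y * Z x y)) ^ 2 ≤
      r * c * (∑ x ∈ X, a x ^ 2) * ∑ y ∈ Y, b y ^ 2 := by
  have h0 := sum_mul_sq_le_sq_mul_sq (X ×ˢ Y) (fun p => a p.1 * w p.1 p.2)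
    fun p => b p.2 * Z p.1 p.2
  have e1 : ∑ p ∈ X ×ˢ Y, a p.1 * w p.1 p.2 * (b p.2 * Z p.1 p.2) =
      ∑ x ∈ X, ∑ y ∈ Y, a x * b y * (w x y * Z x y) := by
    rw [sum_product]
    exact sum_congr rfl fun x _ => sum_congr rfl fun y _ => by ring
  have e2 : ∑ p ∈ X ×ˢ Y, (a p.1 * w p.1 p.2) ^ 2 ≤ r * ∑ x ∈ X, a x ^ 2 := by
    rw [sum_product, mul_sum]
    refine sum_le_sum fun x hx => ?_
    have h : ∑ y ∈ Y, (a x * w x y) ^ 2 = a x ^ 2 * ∑ y ∈ Y, w x y ^ 2 := by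
      rw [mul_sum]
      exact sum_congr rfl fun y _ => by ring
    simp only
    rw [h, mul_comm]
    exact mul_le_mul_of_nonneg_right (hr x hx) (sq_nonneg _)
  have e3 : ∑ p ∈ X ×ˢ Y, (b p.2 * Z p.1 p.2) ^ 2 ≤ c * ∑ y ∈ Y, b y ^ 2 := by
    rw [sum_product, sum_comm, mul_sum]
    refine sum_le_sum fun y hy => ?_
    have h : ∑ x ∈ X, (b y * Z x y) ^ 2 = b y ^ 2 * ∑ x ∈ X, Z x y ^ 2 := by
      rw [mul_sum]
      exact sum_congr rfl fun x _ => by ring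
    simp only
    rw [h, mul_comm]
    exact mul_le_mul_of_nonneg_right (hc y hy) (sq_nonneg _)
  rw [e1] at h0
  refine h0.trans ?_
  have n1 : 0 ≤ ∑ p ∈ X ×ˢ Y, (b p.2 * Z p.1 p.2) ^ 2 := sum_nonneg fun _ _ => sq_nonneg _
  have n2 : 0 ≤ r * ∑ x ∈ X, a x ^ 2 :=
    le_trans (sum_nonneg fun _ _ => sq_nonneg _) e2
  refine (mul_le_mul e2 e3 n1 n2).trans (le_of_eq (by ring))

/-- **The cap of a product kernel.** `0 ≤ w ≤ 1` has mass at most `q ^ 2` on `X × Y` (normalised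
by `M = |X| = |Y|`), the lines of `Z` are at most `e`. -/
theorem prod_cap {X Y : Finset ℤ} {M q e : ℝ} (hM : 0 < M) (hq : 0 ≤ q)
    {w Z : ℤ → ℤ → ℝ} (hw0 : ∀ x ∈ X, ∀ y ∈ Y, 0 ≤ w x y) (hw1 : ∀ x ∈ X, ∀ y ∈ Y, w x y ≤ 1)
    (hm : ∑ x ∈ X, ∑ y ∈ Y, w x y ^ 2 ≤ q ^ 2 * M ^ 2)
    (hr : ∀ x ∈ X, ∑ y ∈ Y, Z x y ^ 2 ≤ e * M) (hc : ∀ y ∈ Y, ∑ x ∈ X, Z x y ^ 2 ≤ e * M)
    (a b : ℤ → ℝ) :
    (∑ x ∈ X, ∑ y ∈ Y, a x * b y * (w x y * |Z x y|)) ^ 2 ≤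
      4 * (q * e) * M ^ 2 * (∑ x ∈ X, a x ^ 2) * ∑ y ∈ Y, b y ^ 2 := by
  classical
  set H : Finset ℤ := X.filter fun x => q * M < ∑ y ∈ Y, w x y ^ 2 with hH
  have hHX : H ⊆ X := filter_subset _ _
  set w1 : ℤ → ℤ → ℝ := fun x y => if x ∈ H then 0 else w x y with hw1'
  set w2 : ℤ → ℤ → ℝ := fun x y => if x ∈ H then w x y else 0 with hw2'
  have hs : ∀ x y, w x y = w1 x y + w2 x y := by
    intro x y
    rw [hw1', hw2']
    by_cases h : x ∈ H <;> simp [h]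
  -- light rows
  have l1 : ∀ x ∈ X, ∑ y ∈ Y, w1 x y ^ 2 ≤ q * M := by
    intro x hx
    by_cases h : x ∈ H
    · simp only [hw1', h, if_true]
      simp only [ne_eq, OfNat.ofNat_ne_zero, not_false_eq_true, zero_pow, sum_const_zero]
      positivity
    · simp only [hw1', h, if_false]
      by_contra hc'
      exact h (mem_filter.2 ⟨hx, lt_of_not_ge hc'⟩)
  have l2 : ∀ y ∈ Y, ∑ x ∈ X, |Z x y| ^ 2 ≤ e * M := by
    intro y hy
    simp only [sq_abs]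
    exact hc y hy
  have A1 := cs_rows (a := a) (b := b) (Z := fun x y => |Z x y|) l1 l2
  -- heavy rows: few
  have cH : ∀ y ∈ Y, ∑ x ∈ X, w2 x y ^ 2 ≤ q * M := by
    intro y hy
    have h1 : ∑ x ∈ X, w2 x y ^ 2 ≤ (H.card : ℝ) := by
      have h2 : ∑ x ∈ X, w2 x y ^ 2 = ∑ x ∈ H, w x y ^ 2 := by
        rw [← sum_subset hHX]
        · refine sum_congr rfl fun x hx => ?_
          simp only [hw2', hx, if_true]
        · intro x _ hx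
          simp only [hw2', hx, if_false]
          norm_num
      rw [h2]
      calc ∑ x ∈ H, w x y ^ 2 ≤ ∑ x ∈ H, (1 : ℝ) := by
            refine sum_le_sum fun x hx => ?_
            exact pow_le_one₀ (hw0 x (hHX hx) y hy) (hw1 x (hHX hx) y hy)
        _ = (H.card : ℝ) := by simp
    refine h1.trans ?_
    rcases hq.eq_or_lt with hq0 | hq0
    · -- q = 0: no heavy row
      have h3 : H = ∅ := by
        rw [hH, filter_eq_empty_iff]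
        intro x hx hlt
        have h4 : ∑ y ∈ Y, w x y ^ 2 ≤ ∑ x ∈ X, ∑ y ∈ Y, w x y ^ 2 :=
          single_le_sum (f := fun x => ∑ y ∈ Y, w x y ^ 2)
            (fun _ _ => sum_nonneg fun _ _ => sq_nonneg _) hx
        rw [← hq0] at hm hlt
        have h5 := h4.trans hm
        norm_num at h5 hlt
        linarith
      rw [h3, ← hq0]
      simp
    · have h4 : (H.card : ℝ) * (q * M) ≤ q ^ 2 * M ^ 2 := by
        calc (H.card : ℝ) * (q * M) = ∑ x ∈ H, q * M := by simp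
          _ ≤ ∑ x ∈ H, ∑ y ∈ Y, w x y ^ 2 :=
              sum_le_sum fun x hx => (mem_filter.1 hx).2.le
          _ ≤ ∑ x ∈ X, ∑ y ∈ Y, w x y ^ 2 :=
              sum_le_sum_of_subset_of_nonneg hHX fun _ _ _ => sum_nonneg fun _ _ => sq_nonneg _
          _ ≤ _ := hm
      have h5 : 0 < q * M := by positivity
      have h6 : (H.card : ℝ) * (q * M) ≤ q * M * (q * M) := h4.trans (le_of_eq (by ring))
      exact le_of_mul_le_mul_right h6 h5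
  have rZ : ∀ x ∈ X, ∑ y ∈ Y, |Z x y| ^ 2 ≤ e * M := by
    intro x hx
    simp only [sq_abs]
    exact hr x hx
  have A2 := cs_rows (X := Y) (Y := X) (a := b) (b := a) (w := fun y x => w2 x y)
    (Z := fun y x => |Z x y|) cH rZ
  have e2 : ∑ y ∈ Y, ∑ x ∈ X, b y * a x * (w2 x y * |Z x y|) =
      ∑ x ∈ X, ∑ y ∈ Y, a x * b y * (w2 x y * |Z x y|) := by
    rw [sum_comm]
    exact sum_congr rfl fun x _ => sum_congr rfl fun y _ => by ring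
  rw [e2] at A2
  have e3 : ∑ x ∈ X, ∑ y ∈ Y, a x * b y * (w x y * |Z x y|) =
      ∑ x ∈ X, ∑ y ∈ Y, a x * b y * (w1 x y * |Z x y|) +
        ∑ x ∈ X, ∑ y ∈ Y, a x * b y * (w2 x y * |Z x y|) := by
    rw [← sum_add_distrib]
    refine sum_congr rfl fun x _ => ?_
    rw [← sum_add_distrib]
    exact sum_congr rfl fun y _ => by rw [hs]; ring
  rw [e3]
  set S1 := ∑ x ∈ X, ∑ y ∈ Y, a x * b y * (w1 x y * |Z x y|)
  set S2 := ∑ x ∈ X, ∑ y ∈ Y, a x * b y * (w2 x y * |Z x y|)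
  have h7 : (S1 + S2) ^ 2 ≤ 2 * S1 ^ 2 + 2 * S2 ^ 2 := by nlinarith [sq_nonneg (S1 - S2)]
  refine h7.trans ?_
  calc 2 * S1 ^ 2 + 2 * S2 ^ 2 ≤
      2 * (q * M * (e * M) * (∑ x ∈ X, a x ^ 2) * ∑ y ∈ Y, b y ^ 2) +
        2 * (q * M * (e * M) * (∑ y ∈ Y, b y ^ 2) * ∑ x ∈ X, a x ^ 2) := by
        linarith [A1, A2]
    _ = _ := by ring

variable {L k : ℕ} {n m : ℤ} {q e : ℝ} {w Z : ℤ → ℤ → ℝ} {A : ℤ → ℤ → ℤ → ℝ}

/-- **The cap on a square where `w` has small mass**, label on the left variable. -/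
theorem capL_alive (hq : 0 ≤ q) (he : 0 ≤ e)
    (hw0 : ∀ x ∈ iv k n, ∀ y ∈ iv k m, 0 ≤ w x y) (hw1 : ∀ x ∈ iv k n, ∀ y ∈ iv k m, w x y ≤ 1)
    (hA : ∀ x ∈ iv k n, ∀ y ∈ iv k m, ∑ l ∈ lbs L, A l x y ^ 2 ≤ (w x y * Z x y) ^ 2)
    (hm : ∑ x ∈ iv k n, ∑ y ∈ iv k m, w x y ^ 2 ≤ q ^ 2 * 4 ^ k)
    (hr : ∀ x ∈ iv k n, ∑ y ∈ iv k m, Z x y ^ 2 ≤ e * 2 ^ k)
    (hc : ∀ y ∈ iv k m, ∑ x ∈ iv k n, Z x y ^ 2 ≤ e * 2 ^ k) :
    CapL L k n m (2 * √(q * e)) A := by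
  intro u v
  have h4 : (4 : ℝ) ^ k = (2 ^ k) ^ 2 := by
    rw [← pow_mul, mul_comm k 2, pow_mul]
    norm_num
  rw [h4] at hm
  have key := prod_cap (X := iv k n) (Y := iv k m) (M := 2 ^ k) (by positivity) hq hw0 hw1 hm
    hr hc (fun x => √(∑ l ∈ lbs L, u l x ^ 2)) fun y => |v y|
  have e1 : ∑ x ∈ iv k n, (√(∑ l ∈ lbs L, u l x ^ 2)) ^ 2 =
      ∑ x ∈ iv k n, ∑ l ∈ lbs L, u l x ^ 2 :=
    sum_congr rfl fun x _ => Real.sq_sqrt (sum_nonneg fun _ _ => sq_nonneg _)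
  have e2 : ∑ y ∈ iv k m, |v y| ^ 2 = ∑ y ∈ iv k m, v y ^ 2 :=
    sum_congr rfl fun y _ => sq_abs _
  simp only [e1, e2] at key
  have e3 : (2 * √(q * e) * 2 ^ k) ^ 2 = 4 * (q * e) * (2 ^ k) ^ 2 := by
    rw [mul_pow, mul_pow, Real.sq_sqrt (by positivity)]
    norm_num
  rw [e3]
  refine le_trans ?_ key
  rw [← sq_abs]
  refine pow_le_pow_left₀ (abs_nonneg _) ?_ 2
  refine (abs_sum_le_sum_abs _ _).trans (sum_le_sum fun x hx => ?_)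
  have e5 : ∑ l ∈ lbs L, ∑ y ∈ iv k m, u l x * v y * A l x y =
      ∑ y ∈ iv k m, v y * ∑ l ∈ lbs L, u l x * A l x y := by
    rw [sum_comm]
    refine sum_congr rfl fun y _ => ?_
    rw [mul_sum]
    exact sum_congr rfl fun l _ => by ring
  rw [e5]
  refine (abs_sum_le_sum_abs _ _).trans (sum_le_sum fun y hy => ?_)
  rw [abs_mul]
  have e6 : |∑ l ∈ lbs L, u l x * A l x y| ≤ √(∑ l ∈ lbs L, u l x ^ 2) * (w x y * |Z x y|) := by
    have h1 := sum_mul_sq_le_sq_mul_sq (lbs L) (fun l => u l x) fun l => A l x y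
    have h2 : (∑ l ∈ lbs L, u l x * A l x y) ^ 2 ≤
        (√(∑ l ∈ lbs L, u l x ^ 2) * (w x y * |Z x y|)) ^ 2 := by
      rw [mul_pow, Real.sq_sqrt (sum_nonneg fun _ _ => sq_nonneg _), mul_pow, sq_abs,
        ← mul_pow]
      exact h1.trans (mul_le_mul_of_nonneg_left (hA x hx y hy)
        (sum_nonneg fun _ _ => sq_nonneg _))
    exact abs_le_of_sq_le_sq h2 (mul_nonneg (Real.sqrt_nonneg _)
      (mul_nonneg (hw0 x hx y hy) (abs_nonneg _)))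
  calc |v y| * |∑ l ∈ lbs L, u l x * A l x y| ≤
      |v y| * (√(∑ l ∈ lbs L, u l x ^ 2) * (w x y * |Z x y|)) :=
        mul_le_mul_of_nonneg_left e6 (abs_nonneg _)
    _ = _ := by ring

/-- **The cap on a square where `w` has small mass**, label on the right variable. -/
theorem capR_alive (hq : 0 ≤ q) (he : 0 ≤ e)
    (hw0 : ∀ x ∈ iv k n, ∀ y ∈ iv k m, 0 ≤ w x y) (hw1 : ∀ x ∈ iv k n, ∀ y ∈ iv k m, w x y ≤ 1)
    (hA : ∀ x ∈ iv k n, ∀ y ∈ iv k m, ∑ l ∈ lbs L, A l x y ^ 2 ≤ (w x y * Z x y) ^ 2)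
    (hm : ∑ x ∈ iv k n, ∑ y ∈ iv k m, w x y ^ 2 ≤ q ^ 2 * 4 ^ k)
    (hr : ∀ x ∈ iv k n, ∑ y ∈ iv k m, Z x y ^ 2 ≤ e * 2 ^ k)
    (hc : ∀ y ∈ iv k m, ∑ x ∈ iv k n, Z x y ^ 2 ≤ e * 2 ^ k) :
    CapR L k n m (2 * √(q * e)) A := by
  refine capL_alive (n := m) (m := n) (w := fun y x => w x y) (Z := fun y x => Z x y)
    (A := fun l y x => A l x y) hq he (fun y hy x hx => hw0 x hx y hy)
    (fun y hy x hx => hw1 x hx y hy) (fun y hy x hx => hA x hx y hy) ?_ hc hr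
  rw [sum_comm]
  exact hm

/-- The same without labels. -/
theorem cap_alive {C : ℤ → ℤ → ℝ} (hq : 0 ≤ q) (he : 0 ≤ e)
    (hw0 : ∀ x ∈ iv k n, ∀ y ∈ iv k m, 0 ≤ w x y) (hw1 : ∀ x ∈ iv k n, ∀ y ∈ iv k m, w x y ≤ 1)
    (hC : ∀ x ∈ iv k n, ∀ y ∈ iv k m, |C x y| ≤ w x y * |Z x y|)
    (hm : ∑ x ∈ iv k n, ∑ y ∈ iv k m, w x y ^ 2 ≤ q ^ 2 * 4 ^ k)
    (hr : ∀ x ∈ iv k n, ∑ y ∈ iv k m, Z x y ^ 2 ≤ e * 2 ^ k)
    (hc : ∀ y ∈ iv k m, ∑ x ∈ iv k n, Z x y ^ 2 ≤ e * 2 ^ k) :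
    Cap k n m (2 * √(q * e)) C := by
  intro u v
  have h4 : (4 : ℝ) ^ k = (2 ^ k) ^ 2 := by
    rw [← pow_mul, mul_comm k 2, pow_mul]
    norm_num
  rw [h4] at hm
  have key := prod_cap (X := iv k n) (Y := iv k m) (M := 2 ^ k) (by positivity) hq hw0 hw1 hm
    hr hc (fun x => |u x|) fun y => |v y|
  simp only [sq_abs] at key
  have e3 : (2 * √(q * e) * 2 ^ k) ^ 2 = 4 * (q * e) * (2 ^ k) ^ 2 := by
    rw [mul_pow, mul_pow, Real.sq_sqrt (by positivity)]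
    norm_num
  rw [e3]
  refine le_trans ?_ key
  rw [← sq_abs]
  refine pow_le_pow_left₀ (abs_nonneg _) ?_ 2
  refine (abs_sum_le_sum_abs _ _).trans (sum_le_sum fun x hx => ?_)
  refine (abs_sum_le_sum_abs _ _).trans (sum_le_sum fun y hy => ?_)
  rw [abs_mul, abs_mul]
  exact mul_le_mul_of_nonneg_left (hC x hx y hy) (by positivity)

end

end Vale.Agent.P141.H618
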